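import Vale.Agent.P067.Alld.Van.Conj

/-!
P067, part I: abelian unipotent groups given by square zero additive groups of matrices.
-/

namespace Vale.Agent.P067.Alld.Van

open Finset Matrix

variable {R : Type} [CommRing R] {n : ℕ}

/-- Matrices `x` with `x - 1` in a square zero additive group. -/
def uni (V : AddSubgroup (Matrix (Fin n) (Fin n) R)) (hV : ∀ a ∈ V, ∀ b ∈ V, a * b = 0) :
    Subgroup (SpecialLinearGroup (Fin n) R) where
  carrier := {x | x.1 - 1 ∈ V}
  one_mem' := by simp [V.zero_mem]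
  mul_mem' {x y} hx hy := by
    show (x * y).1 - 1 ∈ V
    have h := hV _ hx _ hy
    simp only [sub_mul, mul_sub, mul_one, one_mul] at h
    have e : (x * y).1 - 1 = (x.1 - 1) + (y.1 - 1) := by
      show x.1 * y.1 - 1 = _
      rw [← sub_eq_zero, ← h]
      abel
    rw [e]
    exact add_mem hx hy
  inv_mem' {x} hx := by
    show (x⁻¹).1 - 1 ∈ V
    have h := hV _ hx _ hx
    simp only [sub_mul, mul_sub, mul_one, one_mul] at h
    have h1 : x.1 * (2 - x.1) = 1 := by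
      rw [mul_sub, ← sub_eq_zero, ← neg_eq_zero, ← h, mul_two]
      abel
    have h2 : (x⁻¹).1 * x.1 = 1 := congrArg Subtype.val (inv_mul_cancel x)
    have e : (x⁻¹).1 = 2 - x.1 := by
      rw [← mul_one (x⁻¹).1, ← h1, ← mul_assoc, h2, one_mul]
    rw [e, show (2 : Matrix (Fin n) (Fin n) R) - x.1 - 1 = -(x.1 - 1) by
      rw [← one_add_one_eq_two]; abel]
    exact neg_mem hx

theorem mem_uni {V : AddSubgroup (Matrix (Fin n) (Fin n) R)}
    {hV : ∀ a ∈ V, ∀ b ∈ V, a * b = 0} {x : SpecialLinearGroup (Fin n) R} :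
    x ∈ uni V hV ↔ x.1 - 1 ∈ V := Iff.rfl

theorem coe_conj_sub_one (h x : SpecialLinearGroup (Fin n) R) :
    (h * x * h⁻¹).1 - 1 = h.1 * (x.1 - 1) * (h⁻¹).1 := by
  have e : h.1 * (h⁻¹).1 = 1 := congrArg Subtype.val (mul_inv_cancel h)
  show h.1 * x.1 * (h⁻¹).1 - 1 = _
  rw [mul_sub, sub_mul, mul_one, e]

theorem pow_sub_one_of_mem_uni {V : AddSubgroup (Matrix (Fin n) (Fin n) R)}
    {hV : ∀ a ∈ V, ∀ b ∈ V, a * b = 0} {x : SpecialLinearGroup (Fin n) R} (hx : x ∈ uni V hV) :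
    ∀ k : ℕ, (x ^ k).1 - 1 = k • (x.1 - 1) := by
  intro k
  induction k with
  | zero => simp
  | succ k ih =>
    have h := hV _ (mem_uni.1 (pow_mem hx k)) _ (mem_uni.1 hx)
    simp only [sub_mul, mul_sub, mul_one, one_mul] at h
    rw [pow_succ, succ_nsmul, ← ih]
    show (x ^ k).1 * x.1 - 1 = _
    rw [← sub_eq_zero, ← h]
    abel

/-- Rank one matrices `u φ` with `φ u = 0`. -/
def colV (φ : Fin n → R) : AddSubgroup (Matrix (Fin n) (Fin n) R) where
  carrier := {N | ∃ u, φ ⬝ᵥ u = 0 ∧ N = vecMulVec u φ}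
  zero_mem' := ⟨0, by simp, by simp⟩
  add_mem' := fun ⟨u, hu, e⟩ ⟨v, hv, e'⟩ =>
    ⟨u + v, by simp [hu, hv], by rw [e, e', add_vecMulVec]⟩
  neg_mem' := fun ⟨u, hu, e⟩ => ⟨-u, by simp [hu], by rw [e, neg_vecMulVec]⟩

theorem colV_sq (φ : Fin n → R) : ∀ a ∈ colV φ, ∀ b ∈ colV φ, a * b = 0 := by
  rintro _ ⟨u, -, rfl⟩ _ ⟨v, hv, rfl⟩
  rw [vecMulVec_mul_vecMulVec, hv, zero_smul, vecMulVec_zero]

/-- Rank one matrices `v ψ` with `ψ v = 0`. -/
def rowV (v : Fin n → R) : AddSubgroup (Matrix (Fin n) (Fin n) R) where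
  carrier := {N | ∃ ψ, ψ ⬝ᵥ v = 0 ∧ N = vecMulVec v ψ}
  zero_mem' := ⟨0, by simp, by simp⟩
  add_mem' := fun ⟨ψ, hψ, e⟩ ⟨χ, hχ, e'⟩ =>
    ⟨ψ + χ, by simp [hψ, hχ], by rw [e, e', vecMulVec_add]⟩
  neg_mem' := fun ⟨ψ, hψ, e⟩ => ⟨-ψ, by simp [hψ], by rw [e, vecMulVec_neg]⟩

theorem rowV_sq (v : Fin n → R) : ∀ a ∈ rowV v, ∀ b ∈ rowV v, a * b = 0 := by
  rintro _ ⟨ψ, hψ, rfl⟩ _ ⟨χ, -, rfl⟩
  rw [vecMulVec_mul_vecMulVec, hψ, zero_smul, vecMulVec_zero]

/-- The column group of a pair is stable under its stabiliser. -/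
theorem colV_conj (w : FPair R n) {h : SpecialLinearGroup (Fin n) R} (hw : h • w = w)
    {N : Matrix (Fin n) (Fin n) R} (hN : N ∈ colV w.1.2) :
    h.1 * N * (h⁻¹).1 ∈ colV w.1.2 := by
  obtain ⟨u, hu, rfl⟩ := hN
  have h2 : w.1.2 ᵥ* (h⁻¹).1 = w.1.2 := congrArg (fun x : FPair R n => x.1.2) hw
  refine ⟨h.1 *ᵥ u, ?_, by rw [mul_vecMulVec, vecMulVec_mul, h2]⟩
  have e : (h⁻¹).1 * h.1 = 1 := congrArg Subtype.val (inv_mul_cancel h)
  rw [dotProduct_mulVec, ← h2, vecMul_vecMul, e, vecMul_one]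
  exact hu

/-- The row group of a pair is stable under its stabiliser. -/
theorem rowV_conj (w : FPair R n) {h : SpecialLinearGroup (Fin n) R} (hw : h • w = w)
    {N : Matrix (Fin n) (Fin n) R} (hN : N ∈ rowV w.1.1) :
    h.1 * N * (h⁻¹).1 ∈ rowV w.1.1 := by
  obtain ⟨ψ, hψ, rfl⟩ := hN
  have h1 : h.1 *ᵥ w.1.1 = w.1.1 := congrArg (fun x : FPair R n => x.1.1) hw
  refine ⟨ψ ᵥ* (h⁻¹).1, ?_, by rw [mul_vecMulVec, vecMulVec_mul, h1]⟩
  have e : (h⁻¹).1 * h.1 = 1 := congrArg Subtype.val (inv_mul_cancel h)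
  rw [← dotProduct_mulVec]
  nth_rw 1 [← h1]
  rw [mulVec_mulVec, e, one_mulVec]
  exact hψ

/-- A transvection with an index at the given place. -/
def tv {i j : Fin n} (h : i ≠ j) (f : R) : SpecialLinearGroup (Fin n) R :=
  ⟨transvection i j f, det_transvection_of_ne i j h f⟩

theorem single_eq_vecMulVec (i j : Fin n) (f : R) :
    (Matrix.single i j f : Matrix (Fin n) (Fin n) R) =
      vecMulVec (Pi.single i f) (Pi.single j 1) := by
  ext a b
  by_cases ha : a = i <;> by_cases hb : b = j <;>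
    simp [vecMulVec_apply, ha, hb, Ne.symm]

/-- Conjugates of transvections into the last index lie in the column group. -/
theorem conj_tv_col {i c : Fin n} (h : i ≠ c) (f : R) (g : SpecialLinearGroup (Fin n) R) :
    g * tv h f * g⁻¹ ∈ uni (colV (g • stdPair R c).1.2) (colV_sq _) := by
  rw [mem_uni, coe_conj_sub_one]
  refine ⟨g.1 *ᵥ Pi.single i f, ?_, ?_⟩
  · show (Pi.single c 1 ᵥ* (g⁻¹).1) ⬝ᵥ (g.1 *ᵥ Pi.single i f) = 0
    have e : (g⁻¹).1 * g.1 = 1 := congrArg Subtype.val (inv_mul_cancel g)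
    rw [← dotProduct_mulVec, mulVec_mulVec, e, one_mulVec]
    simp [h]
  · rw [show (tv h f).1 - 1 = vecMulVec (Pi.single i f) (Pi.single c 1) by
      simp [tv, transvection, single_eq_vecMulVec], mul_vecMulVec, vecMulVec_mul]
    rfl

/-- Conjugates of transvections out of the last index lie in the row group. -/
theorem conj_tv_row {j c : Fin n} (h : c ≠ j) (f : R) (g : SpecialLinearGroup (Fin n) R) :
    g * tv h f * g⁻¹ ∈ uni (rowV (g • stdPair R c).1.1) (rowV_sq _) := by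
  rw [mem_uni, coe_conj_sub_one]
  refine ⟨(f • Pi.single j 1) ᵥ* (g⁻¹).1, ?_, ?_⟩
  · show ((f • Pi.single j 1) ᵥ* (g⁻¹).1) ⬝ᵥ (g.1 *ᵥ Pi.single c 1) = 0
    have e : (g⁻¹).1 * g.1 = 1 := congrArg Subtype.val (inv_mul_cancel g)
    rw [← dotProduct_mulVec, mulVec_mulVec, e, one_mulVec]
    simp [h]
  · rw [show (tv h f).1 - 1 = vecMulVec (Pi.single c 1) (f • Pi.single j 1) by
      rw [vecMulVec_smul, ← single_eq_vecMulVec]
      simp [tv, transvection, Matrix.smul_single], mul_vecMulVec, vecMulVec_mul]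
    rfl

/-- A transvection is a commutator through any third index. -/
theorem tv_comm {i j c : Fin n} (hij : i ≠ j) (hic : i ≠ c) (hcj : c ≠ j) (f : R) :
    tv hij f = tv hic f * tv hcj 1 * tv hic (-f) * tv hcj (-1) := by
  apply Subtype.ext
  have haa : Matrix.single i c f * Matrix.single i c f = 0 :=
    single_mul_single_of_ne _ _ _ _ (Ne.symm hic) _
  have hbb : Matrix.single c j (1 : R) * Matrix.single c j 1 = 0 :=
    single_mul_single_of_ne _ _ _ _ (Ne.symm hcj) _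
  have hba : Matrix.single c j (1 : R) * Matrix.single i c f = 0 :=
    single_mul_single_of_ne _ _ _ _ (Ne.symm hij) _
  have hab : Matrix.single i c f * Matrix.single c j (1 : R) = Matrix.single i j f := by
    rw [single_mul_single_same, mul_one]
  show 1 + Matrix.single i j f = (1 + Matrix.single i c f) * (1 + Matrix.single c j (1 : R)) *
    (1 + Matrix.single i c (-f)) * (1 + Matrix.single c j (-1 : R))
  rw [show Matrix.single i c (-f) = -Matrix.single i c f by rw [← single_neg],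
    show Matrix.single c j (-1 : R) = -Matrix.single c j 1 by rw [← single_neg], ← hab]
  generalize Matrix.single i c f = a at haa hba ⊢
  generalize Matrix.single c j (1 : R) = b at hbb hba ⊢
  simp only [mul_add, add_mul, mul_one, one_mul, mul_neg, neg_mul, mul_assoc, haa, hbb, hba,
    mul_zero, add_zero]
  abel

end Vale.Agent.P067.Alld.Van
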